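import Vale.Agent.P112.Bdl.B2
import Vale.Agent.P112.Bdl.B6

open MeasureTheory Filter Topology

namespace Vale.Agent.Results.P112.FiniteTypeAndScale

open Vale.Agent.P112

/-- Partial results on Stein's conjecture for Hilbert transforms along Lipschitz fields:
uniform strong (2,2) bounds for fields of finite type at all scales up to the critical one,
scale independence and sharp scale threshold for the full conjecture, and sharpness of the
Lipschitz hypothesis. -/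
theorem result :
    (∀ (v : Plane → Plane) (F : Plane → ℂ), IsSchwartz F → ∀ (x : Plane) (a : ℝ), 0 < a →
      Tendsto (fun ε : ℝ => truncHilbert v ε a F x) (𝓝[>] (0 : ℝ)) (𝓝 (hilbert v a F x))) ∧
    (∀ K β : ℝ, 1 ≤ K → 0 < β → β ≤ 1 → ∃ C : ℝ, 0 < C ∧
      ∀ v : Plane → Plane, (∀ x, ‖v x‖ = 1) → LipschitzWith 1 v → FiniteType v K β →
        ∀ a : ℝ, 0 < a → a ≤ 1 → StrongType v a C ∧ WeakType v a C) ∧
    ({a : ℝ | 0 < a ∧ ∃ C, SteinHolds a C} = ∅ ∨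
      {a : ℝ | 0 < a ∧ ∃ C, SteinHolds a C} = Set.Ioc 0 1) ∧
    (∃ v : Plane → Plane, (∀ x, ‖v x‖ = 1) ∧ LipschitzWith 1 v ∧
      ∀ a : ℝ, 1 < a → ∀ C : ℝ, ¬ WeakType v a C) ∧
    (∀ ω : ℝ → ℝ, (∀ r s : ℝ, 0 < r → r ≤ s → ω r ≤ ω s) →
      (∀ r s : ℝ, 0 < r → r ≤ s → ω s / s ≤ ω r / r) →
      ∀ a : ℝ, 0 < a → (∃ r : ℝ, 0 < r ∧ r < a * ω r) →
      ∃ v : Plane → Plane, (∀ x, ‖v x‖ = 1) ∧ (∀ x y, x ≠ y → ‖v x - v y‖ ≤ ω ‖x - y‖) ∧
        (∃ K, LipschitzWith K v) ∧ ∀ C : ℝ, ¬ WeakType v a C) := by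
  simp_rw [steinHolds_iff, weakType_iff]
  refine ⟨?_, ?_, scale_dichotomy,
    ⟨focusField 1 1, norm_focusField 1 1, ?_, fun a ha C => ?_⟩, ?_⟩
  · rintro v F ⟨f, rfl⟩ x a ha
    exact hilbert_tendsto v f x ha
  · intro K β hK hβ hβ1
    refine (strong_of_finiteType K β hK hβ hβ1).elim fun C hC => ⟨C, hC.1, ?_⟩
    intro v hvu hvl hft a ha ha1
    have h := hC.2 v hvu hvl hft a ha ha1
    exact ⟨h.1, weakType_iff.mp h.2⟩
  · refine LipschitzWith.of_dist_le_mul fun x y => ?_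
    rw [dist_eq_norm, dist_eq_norm]
    simpa using norm_focusField_sub_le (K := 1) zero_le_one 1 x y
  · exact not_weak_focusField one_pos one_pos (by linarith) C
  · rintro ω h1 h2 a ha ⟨r, hr, hra⟩
    obtain ⟨v, e1, e2, e3, e4⟩ := modulus_failure ω h1 h2 hr ha hra
    exact ⟨v, e1, e2, ⟨_, e3⟩, e4⟩

end Vale.Agent.Results.P112.FiniteTypeAndScale
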